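import Mathlib
import Vale.Agent.Lib.P302.Defs
import Vale.Agent.Lib.P302.LP
import Vale.Agent.Lib.P302.Cert_A00_gap

namespace Vale.Agent.Results.P302.A00_gap

open Vale.Agent.Lib.P302

/-- The explicit item sizes, as numerators over the capacity 7200. -/
def items : List ℕ := [6302, 5402, 5399, 5394, 3220, 3220, 3210, 3156, 3148, 3094, 2432, 2432, 2432, 2431, 2405, 2405, 2400, 2396, 2374, 2374, 2338, 2031, 2031, 2031, 2022, 1991, 1991, 1990, 1959, 904, 904, 903, 900, 900, 899, 897, 897]

/-- The explicit instance: item sizes `n / 7200`. -/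
def I : List ℚ := items.map (fun n : ℕ => (n : ℚ) / 7200)

/-- patterns of the fractional solution with weights over the denominator 1104 -/
def W : List (List ℕ × ℕ) := [([3148, 3148, 904], 552), ([3156, 2031, 1991], 228), ([5399, 904, 897], 552), ([6302, 897], 1104), ([3220, 3220], 441), ([3156, 3094, 904], 324), ([2432, 2405, 2338], 552), ([3156, 2022, 2022], 552), ([2405, 2405, 2374], 552), ([3220, 1991, 1959], 660), ([3220, 2031, 904, 904], 114), ([2432, 2432, 2031], 966), ([2400, 2400, 2400], 368), ([2405, 2396, 2396], 552), ([2432, 2374, 2374], 828), ([3210, 2031, 1959], 444), ([5394, 904, 900], 552), ([3094, 2031, 2031], 780), ([2431, 2431, 2338], 552), ([3210, 1991, 1991], 660), ([3220, 1990, 1990], 552), ([5394, 903, 903], 552), ([5399, 900, 900], 552), ([5402, 899, 899], 552), ([5402, 900, 897], 552)]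

/-- an optimal assignment of items to bins -/
def asg : List ℕ := [0, 1, 2, 3, 4, 4, 5, 5, 6, 6, 7, 7, 8, 8, 9, 9, 10, 10, 9, 10, 11, 7, 8, 11, 11, 12, 12, 12, 13, 1, 2, 3, 3, 6, 12, 0, 2]

theorem result :
    (∀ a ∈ I, 0 < a ∧ a ≤ 1) ∧ lpValue I ≤ 14093 / 1104 ∧ optValue I = 14 ∧
      (1363 : ℝ) / 1104 ≤ ((optValue I : ℕ) : ℝ) - lpValue I := by
  have hI : I = inst items 7200 := rfl
  have hpos : ∀ a ∈ I, 0 < a ∧ a ≤ 1 := by
    have h : ∀ n ∈ items, 0 < n ∧ n ≤ 7200 := by decide +kernel
    intro a ha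
    simp only [I, List.mem_map] at ha
    obtain ⟨n, hn, rfl⟩ := ha
    obtain ⟨h1, h2⟩ := h n hn
    have h1' : (0 : ℚ) < n := by exact_mod_cast h1
    have h2' : (n : ℚ) ≤ 7200 := by exact_mod_cast h2
    constructor
    · positivity
    · rw [div_le_one (by norm_num)]
      exact h2'
  have hlp : lpValue I ≤ (((W.map (·.2)).sum : ℕ) : ℝ) / ((1104 : ℕ) : ℝ) := by
    have h := lpValue_inst_le items 7200 1104 W (by norm_num) (by norm_num)
      (by decide +kernel) (by decide +kernel)
    rw [hI]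
    exact h
  have hsum : (W.map (·.2)).sum = 14093 := by decide +kernel
  have hlp' : lpValue I ≤ 14093 / 1104 := by
    rw [hsum] at hlp
    refine le_trans hlp (le_of_eq ?_)
    norm_num
  have hlow : ¬ PacksInto I 13 := by
    rw [hI]
    exact Cert_A00_gap.noPack
  have hup : PacksInto I 14 := by
    rw [hI]
    refine packsInto_inst items 7200 14 (by norm_num) (fun i => Fin.ofNat 14 (asg.getD i.val 0)) ?_
    decide +kernel
  have hopt : optValue I = 14 := optValue_eq hup hlow
  refine ⟨hpos, hlp', hopt, ?_⟩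
  rw [hopt]
  have h3 : ((14 : ℕ) : ℝ) = 14 := by norm_num
  rw [h3]
  have h4 : (1363 : ℝ) / 1104 = 14 - 14093 / 1104 := by norm_num
  rw [h4]
  linarith

end Vale.Agent.Results.P302.A00_gap
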