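import Mathlib
import Vale.Agent.Lib.P302.Defs
import Vale.Agent.Lib.P302.Bridge
import Vale.Agent.Lib.P302.LP
import Vale.Agent.Lib.P302.Gap
import Vale.Agent.Lib.P302.Cert

namespace Vale.Agent.Results.P302.A_gap1714

open Vale.Agent.Lib.P302 Vale.Agent.Lib.P302.Checker

/-- The explicit item sizes, as numerators over the capacity 7200. -/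
def items : List ℕ := [5408, 5403, 5395, 5203, 3185, 3185, 3162, 3148, 3125, 2458, 2449, 2394, 2394, 2358, 2294, 2035, 2035, 2018, 1998, 1998, 1806, 904, 904, 902, 897, 897, 896, 891]

/-- The explicit instance: item sizes `n / 7200`. -/
def I : List ℚ := items.map (fun n : ℕ => (n : ℚ) / 7200)

/-- distinct sizes -/
def cls : List ℕ := [5408, 5403, 5395, 5203, 3185, 3162, 3148, 3125, 2458, 2449, 2394, 2358, 2294, 2035, 2018, 1998, 1806, 904, 902, 897, 896, 891]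

/-- patterns of the fractional solution with weights over the denominator 14 -/
def W : List (List ℕ × ℕ) := [([5395, 904, 897], 7), ([3162, 3125, 904], 3), ([5408, 897, 891], 7), ([2458, 2394, 2294], 7), ([3185, 3185], 7), ([3162, 2018, 2018], 7), ([3185, 1998, 1998], 12), ([3185, 2035, 1806], 2), ([5203, 904, 904], 2), ([2449, 2449, 2294], 7), ([2394, 2394, 2394], 7), ([2458, 2358, 2358], 7), ([3162, 2035, 1998], 4), ([3148, 3148, 904], 7), ([3125, 2035, 2035], 11), ([5203, 1806], 12), ([5395, 902, 902], 7), ([5403, 897, 897], 7), ([5408, 896, 896], 7), ([5403, 904, 891], 7)]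

/-- an optimal assignment of items to bins -/
def asg : List ℕ := [10, 9, 8, 7, 6, 6, 5, 5, 4, 4, 3, 2, 3, 2, 3, 1, 2, 1, 0, 1, 7, 9, 10, 8, 4, 8, 1, 9]

/-- table of vectors that cannot be packed into zero bins -/
def D0 : List (List ℕ) := []

/-- tables of vectors that cannot be packed into `j + 1` bins -/
def Ds : List (List (List ℕ)) := [[],[[0,0,0,0,0,0,0,0,1,1,2,1,1,0,0,0,0,0,0,0,0,0],[0,0,0,0,0,0,0,0,0,1,2,0,0,2,1,0,0,1,0,0,0,0],[0,0,0,0,0,0,0,0,0,1,1,1,0,2,1,0,0,1,0,0,0,0],[0,0,0,0,0,0,0,0,0,0,2,1,1,1,1,0,0,1,0,0,0,0],[0,0,0,0,0,0,0,0,0,1,2,0,0,2,0,1,0,1,0,0,0,0],[0,0,0,0,0,0,0,0,0,1,1,1,0,2,0,1,0,1,0,0,0,0],[0,0,0,0,0,0,0,0,0,0,2,1,1,1,0,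1,0,1,0,0,0,0],[0,0,0,0,0,0,0,0,0,1,2,0,0,1,1,1,0,1,0,0,0,0],[0,0,0,0,0,0,0,0,0,1,1,1,0,1,1,1,0,1,0,0,0,0],[0,0,0,0,0,0,0,0,0,0,2,1,1,0,1,1,0,1,0,0,0,0],[0,0,0,0,0,0,0,0,0,1,2,0,0,2,1,0,0,0,1,0,0,0],[0,0,0,0,0,0,0,0,0,1,1,1,0,2,1,0,0,0,1,0,0,0],[0,0,0,0,0,0,0,0,0,0,2,1,1,1,1,0,0,0,1,0,0,0],[0,0,0,0,0,0,0,0,0,1,2,0,0,2,0,1,0,0,1,0,0,0],[0,0,0,0,0,0,0,0,0,1,1,1,0,2,0,1,0,0,1,0,0,0],[0,0,0,0,0,0,0,0,0,0,2,1,1,1,0,1,0,0,1,0,0,0],[0,0,0,0,0,0,0,0,0,1,2,0,0,1,1,1,0,0,1,0,0,0],[0,0,0,0,0,0,0,0,0,1,1,1,0,1,1,1,0,0,1,0,0,0],[0,0,0,0,0,0,0,0,0,0,2,1,1,0,1,1,0,0,1,0,0,0],[0,0,0,0,0,0,0,0,0,1,2,0,0,2,1,0,0,0,0,1,0,0],[0,0,0,0,0,0,0,0,0,1,1,1,0,2,1,0,0,0,0,1,0,0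],[0,0,0,0,0,0,0,0,0,0,2,1,1,1,1,0,0,0,0,1,0,0],[0,0,0,0,0,0,0,0,0,1,2,0,0,2,0,1,0,0,0,1,0,0],[0,0,0,0,0,0,0,0,0,1,1,1,0,2,0,1,0,0,0,1,0,0],[0,0,0,0,0,0,0,0,0,0,2,1,1,1,0,1,0,0,0,1,0,0],[0,0,0,0,0,0,0,0,0,1,2,0,0,1,1,1,0,0,0,1,0,0],[0,0,0,0,0,0,0,0,0,1,1,1,0,1,1,1,0,0,0,1,0,0],[0,0,0,0,0,0,0,0,0,0,2,1,1,0,1,1,0,0,0,1,0,0],[0,0,0,0,0,0,0,0,0,1,2,0,0,2,1,0,0,0,0,0,1,0],[0,0,0,0,0,0,0,0,0,1,1,1,0,2,1,0,0,0,0,0,1,0],[0,0,0,0,0,0,0,0,0,0,2,1,1,1,1,0,0,0,0,0,1,0],[0,0,0,0,0,0,0,0,0,1,2,0,0,2,0,1,0,0,0,0,1,0],[0,0,0,0,0,0,0,0,0,1,1,1,0,2,0,1,0,0,0,0,1,0],[0,0,0,0,0,0,0,0,0,0,2,1,1,1,0,1,0,0,0,0,1,0],[0,0,0,0,0,0,0,0,0,1,2,0,0,1,1,1,0,0,0,0,1,0],[0,0,0,0,0,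0,0,0,0,1,1,1,0,1,1,1,0,0,0,0,1,0],[0,0,0,0,0,0,0,0,0,0,2,1,1,0,1,1,0,0,0,0,1,0],[0,0,0,0,0,0,0,0,0,1,2,0,0,2,1,0,0,0,0,0,0,1],[0,0,0,0,0,0,0,0,0,1,1,1,0,2,1,0,0,0,0,0,0,1],[0,0,0,0,0,0,0,0,0,0,2,1,1,1,1,0,0,0,0,0,0,1],[0,0,0,0,0,0,0,0,0,1,2,0,0,2,0,1,0,0,0,0,0,1],[0,0,0,0,0,0,0,0,0,1,1,1,0,2,0,1,0,0,0,0,0,1],[0,0,0,0,0,0,0,0,0,0,2,1,1,1,0,1,0,0,0,0,0,1],[0,0,0,0,0,0,0,0,0,1,2,0,0,1,1,1,0,0,0,0,0,1],[0,0,0,0,0,0,0,0,0,1,1,1,0,1,1,1,0,0,0,0,0,1],[0,0,0,0,0,0,0,0,0,0,2,1,1,0,1,1,0,0,0,0,0,1]],[[0,0,0,0,0,0,1,0,1,1,2,1,1,2,0,0,0,0,0,0,0,0],[0,0,0,0,0,0,1,0,1,1,2,1,1,1,1,0,0,0,0,0,0,0],[0,0,0,0,0,0,0,1,1,1,2,1,1,2,0,0,0,0,0,0,0,0],[0,0,0,0,0,0,0,1,1,1,2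,1,1,1,1,0,0,0,0,0,0,0],[0,0,0,0,0,0,1,0,1,1,2,1,1,1,0,1,0,0,0,0,0,0],[0,0,0,0,0,0,0,1,1,1,2,1,1,1,0,1,0,0,0,0,0,0],[0,0,0,0,0,0,1,0,1,1,2,1,1,0,1,1,0,0,0,0,0,0],[0,0,0,0,0,0,0,1,1,1,2,1,1,0,1,1,0,0,0,0,0,0],[0,0,0,0,0,0,0,1,1,1,2,1,1,1,0,0,1,0,0,0,0,0],[0,0,0,0,0,0,0,1,1,1,2,1,1,0,1,0,1,0,0,0,0,0],[0,0,0,0,0,0,1,0,1,1,2,1,0,2,1,0,0,0,0,0,0,0],[0,0,0,0,0,0,1,0,1,1,2,0,1,2,1,0,0,0,0,0,0,0],[0,0,0,0,0,0,1,0,1,1,1,1,1,2,1,0,0,0,0,0,0,0],[0,0,0,0,0,0,1,0,1,0,2,1,1,2,1,0,0,0,0,0,0,0],[0,0,0,0,0,0,1,0,0,1,2,1,1,2,1,0,0,0,0,0,0,0],[0,0,0,0,0,0,0,0,1,1,2,1,1,2,1,0,0,1,0,0,0,0],[0,0,0,0,0,0,0,1,1,1,2,1,1,1,0,0,0,2,0,0,0,0],[0,0,0,0,0,0,0,0,1,1,2,1,1,2,0,1,0,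1,0,0,0,0],[0,0,0,0,0,0,0,1,1,1,2,1,1,0,1,0,0,2,0,0,0,0],[0,0,0,0,0,0,0,0,1,1,2,1,1,1,1,1,0,1,0,0,0,0],[0,0,0,0,0,0,0,0,1,1,2,1,1,2,1,0,0,0,1,0,0,0],[0,0,0,0,0,0,0,1,1,1,2,1,1,1,0,0,0,1,1,0,0,0],[0,0,0,0,0,0,0,0,1,1,2,1,1,2,0,1,0,0,1,0,0,0],[0,0,0,0,0,0,0,1,1,1,2,1,1,0,1,0,0,1,1,0,0,0],[0,0,0,0,0,0,0,0,1,1,2,1,1,1,1,1,0,0,1,0,0,0],[0,0,0,0,0,0,0,0,1,1,2,1,1,2,1,0,0,0,0,1,0,0],[0,0,0,0,0,0,0,1,1,1,2,1,1,1,0,0,0,1,0,1,0,0],[0,0,0,0,0,0,0,0,1,1,2,1,1,2,0,1,0,0,0,1,0,0],[0,0,0,0,0,0,0,1,1,1,2,1,1,0,1,0,0,1,0,1,0,0],[0,0,0,0,0,0,0,0,1,1,2,1,1,1,1,1,0,0,0,1,0,0],[0,0,0,0,0,0,0,1,1,1,2,1,1,1,0,0,0,0,1,1,0,0],[0,0,0,0,0,0,0,1,1,1,2,1,1,0,1,0,0,0,1,1,0,0],[0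,0,0,0,0,0,0,0,1,1,2,1,1,2,1,0,0,0,0,0,1,0],[0,0,0,0,0,0,0,1,1,1,2,1,1,1,0,0,0,1,0,0,1,0],[0,0,0,0,0,0,0,0,1,1,2,1,1,2,0,1,0,0,0,0,1,0],[0,0,0,0,0,0,0,1,1,1,2,1,1,0,1,0,0,1,0,0,1,0],[0,0,0,0,0,0,0,0,1,1,2,1,1,1,1,1,0,0,0,0,1,0],[0,0,0,0,0,0,0,1,1,1,2,1,1,1,0,0,0,0,1,0,1,0],[0,0,0,0,0,0,0,1,1,1,2,1,1,0,1,0,0,0,1,0,1,0],[0,0,0,0,0,0,0,0,1,1,2,1,1,2,1,0,0,0,0,0,0,1],[0,0,0,0,0,0,0,1,1,1,2,1,1,1,0,0,0,1,0,0,0,1],[0,0,0,0,0,0,0,0,1,1,2,1,1,2,0,1,0,0,0,0,0,1],[0,0,0,0,0,0,0,1,1,1,2,1,1,0,1,0,0,1,0,0,0,1],[0,0,0,0,0,0,0,0,1,1,2,1,1,1,1,1,0,0,0,0,0,1],[0,0,0,0,0,0,0,1,1,1,2,1,1,1,0,0,0,0,0,2,0,0],[0,0,0,0,0,0,0,1,1,1,2,1,1,0,1,0,0,0,0,2,0,0],[0,0,0,0,0,0,0,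1,1,1,2,1,1,1,0,0,0,0,0,1,1,0],[0,0,0,0,0,0,0,1,1,1,2,1,1,0,1,0,0,0,0,1,1,0],[0,0,0,0,0,0,0,1,1,1,2,1,1,1,0,0,0,0,1,0,0,1],[0,0,0,0,0,0,0,1,1,1,2,1,1,0,1,0,0,0,1,0,0,1]],[[0,0,0,0,0,1,1,1,1,1,2,1,1,2,0,0,0,1,0,0,0,0],[0,0,0,0,0,1,1,1,1,1,2,1,1,1,1,0,0,1,0,0,0,0],[0,0,0,0,0,1,1,1,1,1,2,1,1,2,0,0,0,0,1,0,0,0],[0,0,0,0,0,1,1,1,1,1,2,1,1,1,1,0,0,0,1,0,0,0],[0,0,0,0,0,1,1,1,1,1,2,1,1,2,0,0,0,0,0,1,0,0],[0,0,0,0,0,1,1,1,1,1,2,1,1,1,1,0,0,0,0,1,0,0],[0,0,0,0,0,1,1,1,1,1,2,1,1,2,0,0,0,0,0,0,1,0],[0,0,0,0,0,1,1,1,1,1,2,1,1,1,1,0,0,0,0,0,1,0],[0,0,0,0,0,1,1,1,1,1,2,1,1,2,0,0,0,0,0,0,0,1],[0,0,0,0,0,1,1,1,1,1,2,1,1,1,1,0,0,0,0,0,0,1],[0,0,0,0,0,1,1,0,1,1,2,1,1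,2,1,1,0,0,0,0,0,0],[0,0,0,0,0,1,0,1,1,1,2,1,1,2,1,1,0,0,0,0,0,0],[0,0,0,0,0,0,1,1,1,1,2,1,1,2,1,1,0,0,0,0,0,0],[0,0,0,0,0,1,1,1,1,1,2,1,1,2,0,0,0,0,0,0,0,0],[0,0,0,0,0,1,1,1,1,1,2,1,1,1,1,0,0,0,0,0,0,0],[0,0,0,0,0,1,1,0,1,1,2,1,1,2,1,0,1,0,0,0,0,0],[0,0,0,0,0,1,0,1,1,1,2,1,1,2,1,0,1,0,0,0,0,0],[0,0,0,0,0,0,1,1,1,1,2,1,1,2,1,0,1,0,0,0,0,0],[0,0,0,0,0,1,1,0,1,1,2,1,1,2,0,2,0,0,0,0,0,0],[0,0,0,0,0,1,0,1,1,1,2,1,1,2,0,2,0,0,0,0,0,0],[0,0,0,0,0,0,1,1,1,1,2,1,1,2,0,2,0,0,0,0,0,0],[0,0,0,0,0,1,1,0,1,1,2,1,1,1,1,2,0,0,0,0,0,0],[0,0,0,0,0,1,0,1,1,1,2,1,1,1,1,2,0,0,0,0,0,0],[0,0,0,0,0,0,1,1,1,1,2,1,1,1,1,2,0,0,0,0,0,0],[0,0,0,0,0,0,1,1,1,1,2,1,1,2,0,1,1,0,0,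0,0,0],[0,0,0,0,0,0,1,1,1,1,2,1,1,1,1,1,1,0,0,0,0,0],[0,0,0,0,0,1,1,1,1,1,2,1,0,2,1,0,0,1,0,0,0,0],[0,0,0,0,0,1,1,1,1,1,2,0,1,2,1,0,0,1,0,0,0,0],[0,0,0,0,0,1,1,1,1,1,1,1,1,2,1,0,0,1,0,0,0,0],[0,0,0,0,0,1,1,1,1,0,2,1,1,2,1,0,0,1,0,0,0,0],[0,0,0,0,0,1,1,1,0,1,2,1,1,2,1,0,0,1,0,0,0,0],[0,0,0,0,0,1,1,0,1,1,2,1,1,2,1,0,0,2,0,0,0,0],[0,0,0,0,0,1,0,1,1,1,2,1,1,2,1,0,0,2,0,0,0,0],[0,0,0,0,0,0,1,1,1,1,2,1,1,2,1,0,0,2,0,0,0,0],[0,0,0,0,0,0,1,1,1,1,2,1,1,2,0,1,0,2,0,0,0,0],[0,0,0,0,0,0,1,1,1,1,2,1,1,1,1,1,0,2,0,0,0,0],[0,0,0,0,0,0,1,0,1,1,2,1,1,2,1,2,0,1,0,0,0,0],[0,0,0,0,0,1,1,1,1,1,2,1,0,2,1,0,0,0,1,0,0,0],[0,0,0,0,0,1,1,1,1,1,2,0,1,2,1,0,0,0,1,0,0,0],[0,0,0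,0,0,1,1,1,1,1,1,1,1,2,1,0,0,0,1,0,0,0],[0,0,0,0,0,1,1,1,1,0,2,1,1,2,1,0,0,0,1,0,0,0],[0,0,0,0,0,1,1,1,0,1,2,1,1,2,1,0,0,0,1,0,0,0],[0,0,0,0,0,1,1,0,1,1,2,1,1,2,1,0,0,1,1,0,0,0],[0,0,0,0,0,1,0,1,1,1,2,1,1,2,1,0,0,1,1,0,0,0],[0,0,0,0,0,0,1,1,1,1,2,1,1,2,1,0,0,1,1,0,0,0],[0,0,0,0,0,0,1,1,1,1,2,1,1,2,0,1,0,1,1,0,0,0],[0,0,0,0,0,0,1,1,1,1,2,1,1,1,1,1,0,1,1,0,0,0],[0,0,0,0,0,0,1,0,1,1,2,1,1,2,1,2,0,0,1,0,0,0],[0,0,0,0,0,1,1,1,1,1,2,1,0,2,1,0,0,0,0,1,0,0],[0,0,0,0,0,1,1,1,1,1,2,0,1,2,1,0,0,0,0,1,0,0],[0,0,0,0,0,1,1,1,1,1,1,1,1,2,1,0,0,0,0,1,0,0],[0,0,0,0,0,1,1,1,1,0,2,1,1,2,1,0,0,0,0,1,0,0],[0,0,0,0,0,1,1,1,0,1,2,1,1,2,1,0,0,0,0,1,0,0],[0,0,0,0,0,1,1,0,1,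1,2,1,1,2,1,0,0,1,0,1,0,0],[0,0,0,0,0,1,0,1,1,1,2,1,1,2,1,0,0,1,0,1,0,0],[0,0,0,0,0,0,1,1,1,1,2,1,1,2,1,0,0,1,0,1,0,0],[0,0,0,0,0,0,1,1,1,1,2,1,1,2,0,1,0,1,0,1,0,0],[0,0,0,0,0,0,1,1,1,1,2,1,1,1,1,1,0,1,0,1,0,0],[0,0,0,0,0,0,1,0,1,1,2,1,1,2,1,2,0,0,0,1,0,0],[0,0,0,0,0,1,1,0,1,1,2,1,1,2,1,0,0,0,1,1,0,0],[0,0,0,0,0,1,0,1,1,1,2,1,1,2,1,0,0,0,1,1,0,0],[0,0,0,0,0,0,1,1,1,1,2,1,1,2,1,0,0,0,1,1,0,0],[0,0,0,0,0,0,1,1,1,1,2,1,1,2,0,1,0,0,1,1,0,0],[0,0,0,0,0,0,1,1,1,1,2,1,1,1,1,1,0,0,1,1,0,0],[0,0,0,0,0,1,1,1,1,1,2,1,0,2,1,0,0,0,0,0,1,0],[0,0,0,0,0,1,1,1,1,1,2,0,1,2,1,0,0,0,0,0,1,0],[0,0,0,0,0,1,1,1,1,1,1,1,1,2,1,0,0,0,0,0,1,0],[0,0,0,0,0,1,1,1,1,0,2,1,1,2,1,0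,0,0,0,0,1,0],[0,0,0,0,0,1,1,1,0,1,2,1,1,2,1,0,0,0,0,0,1,0],[0,0,0,0,0,1,1,0,1,1,2,1,1,2,1,0,0,1,0,0,1,0],[0,0,0,0,0,1,0,1,1,1,2,1,1,2,1,0,0,1,0,0,1,0],[0,0,0,0,0,0,1,1,1,1,2,1,1,2,1,0,0,1,0,0,1,0],[0,0,0,0,0,0,1,1,1,1,2,1,1,2,0,1,0,1,0,0,1,0],[0,0,0,0,0,0,1,1,1,1,2,1,1,1,1,1,0,1,0,0,1,0],[0,0,0,0,0,0,1,0,1,1,2,1,1,2,1,2,0,0,0,0,1,0],[0,0,0,0,0,1,1,0,1,1,2,1,1,2,1,0,0,0,1,0,1,0],[0,0,0,0,0,1,0,1,1,1,2,1,1,2,1,0,0,0,1,0,1,0],[0,0,0,0,0,0,1,1,1,1,2,1,1,2,1,0,0,0,1,0,1,0],[0,0,0,0,0,0,1,1,1,1,2,1,1,2,0,1,0,0,1,0,1,0],[0,0,0,0,0,0,1,1,1,1,2,1,1,1,1,1,0,0,1,0,1,0],[0,0,0,0,0,1,1,1,1,1,2,1,0,2,1,0,0,0,0,0,0,1],[0,0,0,0,0,1,1,1,1,1,2,0,1,2,1,0,0,0,0,0,0,1]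,[0,0,0,0,0,1,1,1,1,1,1,1,1,2,1,0,0,0,0,0,0,1],[0,0,0,0,0,1,1,1,1,0,2,1,1,2,1,0,0,0,0,0,0,1],[0,0,0,0,0,1,1,1,0,1,2,1,1,2,1,0,0,0,0,0,0,1],[0,0,0,0,0,1,1,0,1,1,2,1,1,2,1,0,0,1,0,0,0,1],[0,0,0,0,0,1,0,1,1,1,2,1,1,2,1,0,0,1,0,0,0,1],[0,0,0,0,0,0,1,1,1,1,2,1,1,2,1,0,0,1,0,0,0,1],[0,0,0,0,0,0,1,1,1,1,2,1,1,2,0,1,0,1,0,0,0,1],[0,0,0,0,0,0,1,1,1,1,2,1,1,1,1,1,0,1,0,0,0,1],[0,0,0,0,0,0,1,0,1,1,2,1,1,2,1,2,0,0,0,0,0,1],[0,0,0,0,0,1,1,0,1,1,2,1,1,2,1,0,0,0,0,2,0,0],[0,0,0,0,0,1,0,1,1,1,2,1,1,2,1,0,0,0,0,2,0,0],[0,0,0,0,0,0,1,1,1,1,2,1,1,2,1,0,0,0,0,2,0,0],[0,0,0,0,0,0,1,1,1,1,2,1,1,2,0,1,0,0,0,2,0,0],[0,0,0,0,0,0,1,1,1,1,2,1,1,1,1,1,0,0,0,2,0,0],[0,0,0,0,0,1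,1,0,1,1,2,1,1,2,1,0,0,0,0,1,1,0],[0,0,0,0,0,1,0,1,1,1,2,1,1,2,1,0,0,0,0,1,1,0],[0,0,0,0,0,0,1,1,1,1,2,1,1,2,1,0,0,0,0,1,1,0],[0,0,0,0,0,0,1,1,1,1,2,1,1,2,0,1,0,0,0,1,1,0],[0,0,0,0,0,0,1,1,1,1,2,1,1,1,1,1,0,0,0,1,1,0],[0,0,0,0,0,1,1,0,1,1,2,1,1,2,1,0,0,0,1,0,0,1],[0,0,0,0,0,1,0,1,1,1,2,1,1,2,1,0,0,0,1,0,0,1],[0,0,0,0,0,0,1,1,1,1,2,1,1,2,1,0,0,0,1,0,0,1],[0,0,0,0,0,0,1,1,1,1,2,1,1,2,0,1,0,0,1,0,0,1],[0,0,0,0,0,0,1,1,1,1,2,1,1,1,1,1,0,0,1,0,0,1]],[[0,0,0,0,1,1,1,1,1,1,2,1,1,2,1,1,0,1,0,0,0,0],[0,0,0,0,1,1,1,1,1,1,2,1,1,2,1,0,1,1,0,0,0,0],[0,0,0,0,1,1,1,1,1,1,2,1,1,2,0,2,0,1,0,0,0,0],[0,0,0,0,1,1,1,1,1,1,2,1,1,1,1,2,0,1,0,0,0,0],[0,0,0,0,1,1,1,1,1,1,2,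1,1,2,1,1,0,0,1,0,0,0],[0,0,0,0,1,1,1,1,1,1,2,1,1,2,1,0,1,0,1,0,0,0],[0,0,0,0,1,1,1,1,1,1,2,1,1,2,0,2,0,0,1,0,0,0],[0,0,0,0,1,1,1,1,1,1,2,1,1,1,1,2,0,0,1,0,0,0],[0,0,0,0,1,1,1,1,1,1,2,1,1,2,1,0,0,2,1,0,0,0],[0,0,0,0,1,1,1,1,1,1,2,1,1,2,1,1,0,0,0,1,0,0],[0,0,0,0,1,1,1,1,1,1,2,1,1,2,1,0,1,0,0,1,0,0],[0,0,0,0,1,1,1,1,1,1,2,1,1,2,0,2,0,0,0,1,0,0],[0,0,0,0,1,1,1,1,1,1,2,1,1,1,1,2,0,0,0,1,0,0],[0,0,0,0,1,1,1,1,1,1,2,1,1,2,1,0,0,2,0,1,0,0],[0,0,0,0,1,1,1,1,1,1,2,1,1,2,1,0,0,1,1,1,0,0],[0,0,0,0,1,1,1,1,1,1,2,1,1,2,1,1,0,0,0,0,1,0],[0,0,0,0,1,1,1,1,1,1,2,1,1,2,1,0,1,0,0,0,1,0],[0,0,0,0,1,1,1,1,1,1,2,1,1,2,0,2,0,0,0,0,1,0],[0,0,0,0,1,1,1,1,1,1,2,1,1,1,1,2,0,0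,0,0,1,0],[0,0,0,0,1,1,1,1,1,1,2,1,1,2,1,0,0,2,0,0,1,0],[0,0,0,0,1,1,1,1,1,1,2,1,1,2,1,0,0,1,1,0,1,0],[0,0,0,0,1,1,1,1,1,1,2,1,1,2,1,1,0,0,0,0,0,1],[0,0,0,0,1,1,1,1,1,1,2,1,1,2,1,0,1,0,0,0,0,1],[0,0,0,0,1,1,1,1,1,1,2,1,1,2,0,2,0,0,0,0,0,1],[0,0,0,0,1,1,1,1,1,1,2,1,1,1,1,2,0,0,0,0,0,1],[0,0,0,0,1,1,1,1,1,1,2,1,1,2,1,0,0,2,0,0,0,1],[0,0,0,0,1,1,1,1,1,1,2,1,1,2,1,0,0,1,1,0,0,1],[0,0,0,0,1,1,1,1,1,1,2,1,1,2,1,0,0,1,0,2,0,0],[0,0,0,0,1,1,1,1,1,1,2,1,1,2,1,0,0,1,0,1,1,0],[0,0,0,0,1,1,1,1,1,1,2,1,1,2,1,0,0,0,1,2,0,0],[0,0,0,0,1,1,1,1,1,1,2,1,1,2,1,0,0,0,1,1,1,0],[0,0,0,0,1,1,1,1,1,1,2,1,1,2,1,1,0,0,0,0,0,0],[0,0,0,0,1,1,1,1,1,1,2,1,1,2,1,0,1,0,0,0,0,0],[0,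0,0,0,1,1,1,1,1,1,2,1,1,2,0,2,0,0,0,0,0,0],[0,0,0,0,1,1,1,1,1,1,2,1,1,1,1,2,0,0,0,0,0,0],[0,0,0,0,1,1,1,0,1,1,2,1,1,2,1,2,1,0,0,0,0,0],[0,0,0,0,1,1,0,1,1,1,2,1,1,2,1,2,1,0,0,0,0,0],[0,0,0,0,1,0,1,1,1,1,2,1,1,2,1,2,1,0,0,0,0,0],[0,0,0,0,0,1,1,1,1,1,2,1,1,2,1,2,1,0,0,0,0,0],[0,0,0,0,1,1,1,1,1,1,2,1,1,2,1,0,0,2,0,0,0,0],[0,0,0,0,1,1,1,1,1,1,2,1,0,2,1,2,0,1,0,0,0,0],[0,0,0,0,1,1,1,1,1,1,2,0,1,2,1,2,0,1,0,0,0,0],[0,0,0,0,1,1,1,1,1,1,1,1,1,2,1,2,0,1,0,0,0,0],[0,0,0,0,1,1,1,1,1,0,2,1,1,2,1,2,0,1,0,0,0,0],[0,0,0,0,1,1,1,1,0,1,2,1,1,2,1,2,0,1,0,0,0,0],[0,0,0,0,1,1,1,0,1,1,2,1,1,2,1,2,0,2,0,0,0,0],[0,0,0,0,1,1,0,1,1,1,2,1,1,2,1,2,0,2,0,0,0,0],[0,0,0,0,1,0,1,1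,1,1,2,1,1,2,1,2,0,2,0,0,0,0],[0,0,0,0,0,1,1,1,1,1,2,1,1,2,1,2,0,2,0,0,0,0],[0,0,0,0,1,1,1,1,1,1,2,1,1,2,1,0,0,1,1,0,0,0],[0,0,0,0,1,1,1,1,1,1,2,1,0,2,1,2,0,0,1,0,0,0],[0,0,0,0,1,1,1,1,1,1,2,0,1,2,1,2,0,0,1,0,0,0],[0,0,0,0,1,1,1,1,1,1,1,1,1,2,1,2,0,0,1,0,0,0],[0,0,0,0,1,1,1,1,1,0,2,1,1,2,1,2,0,0,1,0,0,0],[0,0,0,0,1,1,1,1,0,1,2,1,1,2,1,2,0,0,1,0,0,0],[0,0,0,0,1,1,1,0,1,1,2,1,1,2,1,2,0,1,1,0,0,0],[0,0,0,0,1,1,0,1,1,1,2,1,1,2,1,2,0,1,1,0,0,0],[0,0,0,0,1,0,1,1,1,1,2,1,1,2,1,2,0,1,1,0,0,0],[0,0,0,0,0,1,1,1,1,1,2,1,1,2,1,2,0,1,1,0,0,0],[0,0,0,0,1,1,1,1,1,1,2,1,1,2,1,0,0,1,0,1,0,1],[0,0,0,0,1,1,1,1,1,1,2,1,1,2,1,0,0,1,0,1,0,0],[0,0,0,0,1,1,1,1,1,1,2,1,0,2,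1,2,0,0,0,1,0,0],[0,0,0,0,1,1,1,1,1,1,2,0,1,2,1,2,0,0,0,1,0,0],[0,0,0,0,1,1,1,1,1,1,1,1,1,2,1,2,0,0,0,1,0,0],[0,0,0,0,1,1,1,1,1,0,2,1,1,2,1,2,0,0,0,1,0,0],[0,0,0,0,1,1,1,1,0,1,2,1,1,2,1,2,0,0,0,1,0,0],[0,0,0,0,1,1,1,0,1,1,2,1,1,2,1,2,0,1,0,1,0,0],[0,0,0,0,1,1,0,1,1,1,2,1,1,2,1,2,0,1,0,1,0,0],[0,0,0,0,1,0,1,1,1,1,2,1,1,2,1,2,0,1,0,1,0,0],[0,0,0,0,0,1,1,1,1,1,2,1,1,2,1,2,0,1,0,1,0,0],[0,0,0,0,1,1,1,1,1,1,2,1,1,2,1,0,0,0,1,1,0,1],[0,0,0,0,1,1,1,1,1,1,2,1,1,2,1,0,0,0,1,1,0,0],[0,0,0,0,1,1,1,0,1,1,2,1,1,2,1,2,0,0,1,1,0,0],[0,0,0,0,1,1,0,1,1,1,2,1,1,2,1,2,0,0,1,1,0,0],[0,0,0,0,1,0,1,1,1,1,2,1,1,2,1,2,0,0,1,1,0,0],[0,0,0,0,0,1,1,1,1,1,2,1,1,2,1,2,0,0,1,1,0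,0],[0,0,0,0,1,1,1,1,1,1,2,1,1,2,1,0,0,1,0,0,1,1],[0,0,0,0,1,1,1,1,1,1,2,1,1,2,1,0,0,1,0,0,1,0],[0,0,0,0,1,1,1,1,1,1,2,1,0,2,1,2,0,0,0,0,1,0],[0,0,0,0,1,1,1,1,1,1,2,0,1,2,1,2,0,0,0,0,1,0],[0,0,0,0,1,1,1,1,1,1,1,1,1,2,1,2,0,0,0,0,1,0],[0,0,0,0,1,1,1,1,1,0,2,1,1,2,1,2,0,0,0,0,1,0],[0,0,0,0,1,1,1,1,0,1,2,1,1,2,1,2,0,0,0,0,1,0],[0,0,0,0,1,1,1,0,1,1,2,1,1,2,1,2,0,1,0,0,1,0],[0,0,0,0,1,1,0,1,1,1,2,1,1,2,1,2,0,1,0,0,1,0],[0,0,0,0,1,0,1,1,1,1,2,1,1,2,1,2,0,1,0,0,1,0],[0,0,0,0,0,1,1,1,1,1,2,1,1,2,1,2,0,1,0,0,1,0],[0,0,0,0,1,1,1,1,1,1,2,1,1,2,1,0,0,0,1,0,1,1],[0,0,0,0,1,1,1,1,1,1,2,1,1,2,1,0,0,0,1,0,1,0],[0,0,0,0,1,1,1,0,1,1,2,1,1,2,1,2,0,0,1,0,1,0],[0,0,0,0,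1,1,0,1,1,1,2,1,1,2,1,2,0,0,1,0,1,0],[0,0,0,0,1,0,1,1,1,1,2,1,1,2,1,2,0,0,1,0,1,0],[0,0,0,0,0,1,1,1,1,1,2,1,1,2,1,2,0,0,1,0,1,0],[0,0,0,0,1,1,1,1,1,1,2,1,1,2,1,0,0,1,0,0,0,1],[0,0,0,0,1,1,1,1,1,1,2,1,0,2,1,2,0,0,0,0,0,1],[0,0,0,0,1,1,1,1,1,1,2,0,1,2,1,2,0,0,0,0,0,1],[0,0,0,0,1,1,1,1,1,1,1,1,1,2,1,2,0,0,0,0,0,1],[0,0,0,0,1,1,1,1,1,0,2,1,1,2,1,2,0,0,0,0,0,1],[0,0,0,0,1,1,1,1,0,1,2,1,1,2,1,2,0,0,0,0,0,1],[0,0,0,0,1,1,1,0,1,1,2,1,1,2,1,2,0,1,0,0,0,1],[0,0,0,0,1,1,0,1,1,1,2,1,1,2,1,2,0,1,0,0,0,1],[0,0,0,0,1,0,1,1,1,1,2,1,1,2,1,2,0,1,0,0,0,1],[0,0,0,0,0,1,1,1,1,1,2,1,1,2,1,2,0,1,0,0,0,1],[0,0,0,0,1,1,1,1,1,1,2,1,1,2,1,0,0,0,0,2,1,0],[0,0,0,0,1,1,1,1,1,1,2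,1,1,2,1,0,0,0,0,2,0,1],[0,0,0,0,1,1,1,1,1,1,2,1,1,2,1,0,0,0,0,1,1,1],[0,0,0,0,1,1,1,1,1,1,2,1,1,2,1,0,0,0,0,2,0,0],[0,0,0,0,1,1,1,0,1,1,2,1,1,2,1,2,0,0,0,2,0,0],[0,0,0,0,1,1,0,1,1,1,2,1,1,2,1,2,0,0,0,2,0,0],[0,0,0,0,1,0,1,1,1,1,2,1,1,2,1,2,0,0,0,2,0,0],[0,0,0,0,0,1,1,1,1,1,2,1,1,2,1,2,0,0,0,2,0,0],[0,0,0,0,1,1,1,1,1,1,2,1,1,2,1,0,0,0,0,1,1,0],[0,0,0,0,1,1,1,0,1,1,2,1,1,2,1,2,0,0,0,1,1,0],[0,0,0,0,1,1,0,1,1,1,2,1,1,2,1,2,0,0,0,1,1,0],[0,0,0,0,1,0,1,1,1,1,2,1,1,2,1,2,0,0,0,1,1,0],[0,0,0,0,0,1,1,1,1,1,2,1,1,2,1,2,0,0,0,1,1,0],[0,0,0,0,1,1,1,1,1,1,2,1,1,2,1,0,0,0,1,0,0,1],[0,0,0,0,1,1,1,0,1,1,2,1,1,2,1,2,0,0,1,0,0,1],[0,0,0,0,1,1,0,1,1,1,2,1,1,2,1,2,0,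0,1,0,0,1],[0,0,0,0,1,0,1,1,1,1,2,1,1,2,1,2,0,0,1,0,0,1],[0,0,0,0,0,1,1,1,1,1,2,1,1,2,1,2,0,0,1,0,0,1]],[[0,0,0,0,2,1,1,1,1,1,2,1,1,2,1,2,1,1,0,0,0,0],[0,0,0,0,2,1,1,1,1,1,2,1,1,2,1,2,1,0,1,0,0,0],[0,0,0,0,2,1,1,1,1,1,2,1,1,2,1,2,0,2,1,0,0,0],[0,0,0,0,2,1,1,1,1,1,2,1,1,2,1,2,1,0,0,1,0,0],[0,0,0,0,2,1,1,1,1,1,2,1,1,2,1,2,0,2,0,1,0,0],[0,0,0,0,2,1,1,1,1,1,2,1,1,2,1,2,0,1,1,1,0,0],[0,0,0,0,2,1,1,1,1,1,2,1,1,2,1,2,1,0,0,0,1,0],[0,0,0,0,2,1,1,1,1,1,2,1,1,2,1,2,0,2,0,0,1,0],[0,0,0,0,2,1,1,1,1,1,2,1,1,2,1,2,0,1,1,0,1,0],[0,0,0,0,2,1,1,1,1,1,2,1,1,2,1,2,1,0,0,0,0,1],[0,0,0,0,2,1,1,1,1,1,2,1,1,2,1,2,0,2,0,0,0,1],[0,0,0,0,2,1,1,1,1,1,2,1,1,2,1,2,0,1,1,0,0,1],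[0,0,0,0,2,1,1,1,1,1,2,1,1,2,1,2,0,1,0,2,0,0],[0,0,0,0,2,1,1,1,1,1,2,1,1,2,1,2,0,1,0,1,1,0],[0,0,0,0,2,1,1,1,1,1,2,1,1,2,1,2,0,0,1,2,0,0],[0,0,0,0,2,1,1,1,1,1,2,1,1,2,1,2,0,0,1,1,1,0],[0,0,0,0,2,1,1,1,1,1,2,1,1,2,1,2,1,0,0,0,0,0],[0,0,0,0,2,1,1,1,1,1,2,1,1,2,1,2,0,2,0,0,0,0],[0,0,0,0,2,1,1,1,1,1,2,1,1,2,1,2,0,1,1,0,0,0],[0,0,0,0,2,1,1,1,1,1,2,1,1,2,1,2,0,1,0,1,0,1],[0,0,0,0,2,1,1,1,1,1,2,1,1,2,1,2,0,1,0,1,0,0],[0,0,0,0,2,1,1,1,1,1,2,1,1,2,1,2,0,0,1,1,0,1],[0,0,0,0,2,1,1,1,1,1,2,1,1,2,1,2,0,0,1,1,0,0],[0,0,0,0,2,1,1,1,1,1,2,1,1,2,1,2,0,1,0,0,1,1],[0,0,0,0,2,1,1,1,1,1,2,1,1,2,1,2,0,1,0,0,1,0],[0,0,0,0,2,1,1,1,1,1,2,1,1,2,1,2,0,0,1,0,1,1],[0,0,0,0,2,1,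1,1,1,1,2,1,1,2,1,2,0,0,1,0,1,0],[0,0,0,0,2,1,1,1,1,1,2,1,1,2,1,2,0,1,0,0,0,1],[0,0,0,0,2,1,1,1,1,1,2,1,1,2,1,2,0,0,0,2,1,0],[0,0,0,0,2,1,1,1,1,1,2,1,1,2,1,2,0,0,0,2,0,1],[0,0,0,0,2,1,1,1,1,1,2,1,1,2,1,2,0,0,0,1,1,1],[0,0,0,0,2,1,1,1,1,1,2,1,1,2,1,2,0,0,0,2,0,0],[0,0,0,0,2,1,1,1,1,1,2,1,1,2,1,2,0,0,0,1,1,0],[0,0,0,0,2,1,1,1,1,1,2,1,1,2,1,2,0,0,1,0,0,1]],[[0,0,0,1,2,1,1,1,1,1,2,1,1,2,1,2,1,2,1,0,0,0],[0,0,0,1,2,1,1,1,1,1,2,1,1,2,1,2,1,2,0,1,0,0],[0,0,0,1,2,1,1,1,1,1,2,1,1,2,1,2,1,1,1,1,0,0],[0,0,0,1,2,1,1,1,1,1,2,1,1,2,1,2,1,2,0,0,1,0],[0,0,0,1,2,1,1,1,1,1,2,1,1,2,1,2,1,1,1,0,1,0],[0,0,0,1,2,1,1,1,1,1,2,1,1,2,1,2,1,2,0,0,0,1],[0,0,0,1,2,1,1,1,1,1,2,1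,1,2,1,2,1,1,1,0,0,1],[0,0,0,1,2,1,1,1,1,1,2,1,1,2,1,2,1,1,0,2,0,0],[0,0,0,1,2,1,1,1,1,1,2,1,1,2,1,2,1,1,0,1,1,0],[0,0,0,1,2,1,1,1,1,1,2,1,1,2,1,2,1,0,1,2,0,0],[0,0,0,1,2,1,1,1,1,1,2,1,1,2,1,2,1,0,1,1,1,0],[0,0,0,1,2,1,1,1,1,1,2,1,1,2,1,2,1,2,0,0,0,0],[0,0,0,1,2,1,1,1,1,1,2,1,1,2,1,2,1,1,1,0,0,0],[0,0,0,1,2,1,1,1,1,1,2,1,1,2,1,2,1,1,0,1,0,1],[0,0,0,1,2,1,1,1,1,1,2,1,1,2,1,2,1,1,0,1,0,0],[0,0,0,1,2,1,1,1,1,1,2,1,1,2,1,2,1,0,1,1,0,1],[0,0,0,1,2,1,1,1,1,1,2,1,1,2,1,2,1,0,1,1,0,0],[0,0,0,1,2,1,1,1,1,1,2,1,1,2,1,2,1,1,0,0,1,1],[0,0,0,1,2,1,1,1,1,1,2,1,1,2,1,2,1,1,0,0,1,0],[0,0,0,1,2,1,1,1,1,1,2,1,1,2,1,2,1,0,1,0,1,1],[0,0,0,1,2,1,1,1,1,1,2,1,1,2,1,2,1,0,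1,0,1,0],[0,0,0,1,2,1,1,1,1,1,2,1,1,2,1,2,1,1,0,0,0,1],[0,0,0,1,2,1,1,1,1,1,2,1,1,2,1,2,1,0,0,2,1,0],[0,0,0,1,2,1,1,1,1,1,2,1,1,2,1,2,1,0,0,2,0,1],[0,0,0,1,2,1,1,1,1,1,2,1,1,2,1,2,1,0,0,1,1,1],[0,0,0,1,2,1,1,1,1,1,2,1,1,2,1,2,1,0,0,2,0,0],[0,0,0,1,2,1,1,1,1,1,2,1,1,2,1,2,1,0,0,1,1,0],[0,0,0,1,2,1,1,1,1,1,2,1,1,2,1,2,1,0,1,0,0,1]],[[0,0,1,1,2,1,1,1,1,1,2,1,1,2,1,2,1,2,1,2,0,0],[0,0,1,1,2,1,1,1,1,1,2,1,1,2,1,2,1,2,1,1,1,0],[0,0,1,1,2,1,1,1,1,1,2,1,1,2,1,2,1,2,1,1,0,1],[0,0,1,1,2,1,1,1,1,1,2,1,1,2,1,2,1,2,1,0,1,1],[0,0,1,1,2,1,1,1,1,1,2,1,1,2,1,2,1,2,0,2,1,0],[0,0,1,1,2,1,1,1,1,1,2,1,1,2,1,2,1,1,1,2,1,0],[0,0,1,1,2,1,1,1,1,1,2,1,1,2,1,2,1,2,1,1,0,0],[0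,0,1,1,2,1,1,1,1,1,2,1,1,2,1,2,1,2,1,0,1,0],[0,0,1,1,2,1,1,1,1,1,2,1,1,2,1,2,1,2,1,0,0,1],[0,0,1,1,2,1,1,1,1,1,2,1,1,2,1,2,1,2,0,2,0,1],[0,0,1,1,2,1,1,1,1,1,2,1,1,2,1,2,1,2,0,2,0,0],[0,0,1,1,2,1,1,1,1,1,2,1,1,2,1,2,1,1,1,2,0,1],[0,0,1,1,2,1,1,1,1,1,2,1,1,2,1,2,1,1,1,2,0,0],[0,0,1,1,2,1,1,1,1,1,2,1,1,2,1,2,1,2,1,0,0,0],[0,0,1,1,2,1,1,1,1,1,2,1,1,2,1,2,1,2,0,1,1,1],[0,0,1,1,2,1,1,1,1,1,2,1,1,2,1,2,1,2,0,1,1,0],[0,0,1,1,2,1,1,1,1,1,2,1,1,2,1,2,1,1,1,1,1,1],[0,0,1,1,2,1,1,1,1,1,2,1,1,2,1,2,1,1,1,1,1,0],[0,0,1,1,2,1,1,1,1,1,2,1,1,2,1,2,1,2,0,1,0,1],[0,0,1,1,2,1,1,1,1,1,2,1,1,2,1,2,1,2,0,0,1,1],[0,0,1,1,2,1,1,1,1,1,2,1,1,2,1,2,1,1,0,2,1,1],[0,0,1,1,2,1,1,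1,1,1,2,1,1,2,1,2,1,1,0,2,1,0],[0,0,1,1,2,1,1,1,1,1,2,1,1,2,1,2,1,1,1,1,0,1],[0,0,1,1,2,1,1,1,1,1,2,1,1,2,1,2,1,1,1,0,1,1],[0,0,1,1,2,1,1,1,1,1,2,1,1,2,1,2,1,0,1,2,1,1],[0,0,1,1,2,1,1,1,1,1,2,1,1,2,1,2,1,0,1,2,1,0]],[[0,1,1,1,2,1,1,1,1,1,2,1,1,2,1,2,1,2,1,2,1,1],[0,1,1,1,2,1,1,1,1,1,2,1,1,2,1,2,1,2,1,2,1,0],[0,1,1,1,2,1,1,1,1,1,2,1,1,2,1,2,1,2,1,2,0,1],[0,1,1,1,2,1,1,1,1,1,2,1,1,2,1,2,1,2,1,2,0,0],[0,1,1,1,2,1,1,1,1,1,2,1,1,2,1,2,1,2,1,1,1,1],[0,1,1,1,2,1,1,1,1,1,2,1,1,2,1,2,1,2,1,1,1,0],[0,1,1,1,2,1,1,1,1,1,2,1,1,2,1,2,1,2,0,2,1,1],[0,1,1,1,2,1,1,1,1,1,2,1,1,2,1,2,1,1,1,2,1,1]],[[1,1,1,1,2,1,1,1,1,1,2,1,1,2,1,2,1,2,1,2,1,1]]]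

theorem items_range : ∀ n ∈ items, 0 < n ∧ n ≤ 7200 := by decide +kernel

theorem W_fits : ∀ t ∈ W, t.1.sum ≤ 7200 ∧ ∀ s ∈ t.1, s ∈ items := by decide +kernel

theorem W_covers : ∀ s ∈ items, items.count s * 14 ≤ (W.map (fun t => t.1.count s * t.2)).sum := by
  decide +kernel

theorem cls_nodup : cls.Nodup := by decide +kernel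

theorem cls_pos : ∀ s ∈ cls, 0 < s := by decide +kernel

theorem items_cls : ∀ s ∈ items, s ∈ cls := by decide +kernel

theorem cert_ok : certTop cls 7200 9 D0 Ds (cls.map (fun s => items.count s)) = true := by
  decide +kernel

theorem asg_ok : ∀ j : Fin 11, ∑ i ∈ Finset.univ.filter (fun i : Fin items.length => Fin.ofNat 11 (asg.getD i.val 0) = j), items.get i ≤ 7200 := by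
  decide +kernel

theorem lp_le : lpValue I ≤ 137 / 14 := by
  have h := lpValue_le_inst items 7200 14 W (by norm_num) (by norm_num) W_fits W_covers
  have e : I = inst items 7200 := rfl
  rw [e]
  refine h.trans (le_of_eq ?_)
  have s : (W.map (·.2)).sum = 137 := by decide +kernel
  rw [s]
  norm_num

theorem no_pack : ¬ PacksInto I 10 := by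
  have e : I = inst items 7200 := rfl
  rw [e]
  exact not_packsInto_of_cert items cls 7200 9 (by norm_num) cls_nodup cls_pos items_cls D0 Ds cert_ok

theorem pack : PacksInto I 11 := by
  have e : I = inst items 7200 := rfl
  rw [e]
  exact packsInto_inst items 7200 11 (by norm_num) (fun i => Fin.ofNat 11 (asg.getD i.val 0)) asg_ok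

theorem result :
    (∀ a ∈ I, 0 < a ∧ a ≤ 1) ∧ optValue I = 11 ∧ lpValue I ≤ 137 / 14 ∧
      (17 / 14 : ℝ) ≤ ((optValue I : ℕ) : ℝ) - lpValue I := by
  have hpos : ∀ a ∈ I, 0 < a ∧ a ≤ 1 := by
    intro a ha
    simp only [I, List.mem_map] at ha
    obtain ⟨n, hn, rfl⟩ := ha
    obtain ⟨h1, h2⟩ := items_range n hn
    have h1' : (0 : ℚ) < n := by exact_mod_cast h1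
    have h2' : (n : ℚ) ≤ 7200 := by exact_mod_cast h2
    constructor
    · positivity
    · rw [div_le_one (by norm_num)]
      exact h2'
  have hopt : optValue I = 11 := optValue_eq pack no_pack
  refine ⟨hpos, hopt, lp_le, ?_⟩
  rw [hopt]
  have : (((11 : ℕ)) : ℝ) = 11 := by norm_num
  rw [this]
  linarith [lp_le]

end Vale.Agent.Results.P302.A_gap1714
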